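import Vale.Agent.P130.Final

namespace Vale.Agent.Results.P130.Main

open MeasureTheory

theorem result : ∃ (X : Type) (_ : MeasurableSpace X) (_ : StandardBorelSpace X) (μ : Measure X)
    (_ : IsProbabilityMeasure μ) (T : X ≃ᵐ X), (∀ x, μ {x} = 0) ∧ MeasurePreserving T μ μ ∧
    ∃ (f : Lp ℂ 2 μ) (u : ℤ → Lp ℂ 2 μ), ∫ x, f x ∂μ = 0 ∧
      (∀ n : ℤ, u n =ᵐ[μ] f ∘ ⇑((T.toEquiv : Equiv.Perm X) ^ n)) ∧ Orthonormal ℂ u ∧
      closure (Submodule.span ℂ (Set.range u) : Set (Lp ℂ 2 μ)) =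
        {g : Lp ℂ 2 μ | ∫ x, g x ∂μ = 0} := by
  obtain ⟨μ, _, h1, h2, f, u, h3, h4, h5⟩ := Vale.Agent.P130.main
  refine ⟨_, _, inferInstance, μ, inferInstance, Vale.Agent.P130.shE, h1, h2, f, u, ?_,
    fun n => ?_, h4, h5⟩
  · have h6 : u 0 ∈ {g : Lp ℂ 2 μ | ∫ x, g x ∂μ = 0} :=
      h5 ▸ subset_closure (Submodule.subset_span (Set.mem_range_self 0))
    refine Eq.trans (integral_congr_ae ((h3 0).mono fun x hx => ?_)) h6
    rw [hx, Function.comp_apply, Vale.Agent.P130.sh_zero]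
  · rw [show ⇑((Vale.Agent.P130.shE.toEquiv : Equiv.Perm _) ^ n) = Vale.Agent.P130.sh n from
      funext (Vale.Agent.P130.shE_zpow n)]
    exact h3 n

end Vale.Agent.Results.P130.Main
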